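import Vale.Agent.P236C.Tab
import Vale.Agent.P236C.D.P
import Vale.Agent.P236C.D.Xs1
import Vale.Agent.P236C.D.U1_0

noncomputable section

namespace Vale.Agent.P236C.D

theorem cu1_0_0 : chkU (ctxK tb k2_0) (posK k2_0 (getL 0 q2_0) (getL 0 b2_0)) ds2 y2_0 z2_0 (nat_lit 0)
    (pickX xs1 [nat_lit 0, nat_lit 1, nat_lit 2, nat_lit 3, nat_lit 4])
    (pickU u1_0 [nat_lit 0, nat_lit 1, nat_lit 2, nat_lit 3, nat_lit 4]) = true := by
  decide +kernel

theorem wu1_0 : wf4 u1_0 = true := by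
  decide +kernel

end Vale.Agent.P236C.D

end
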