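import Vale.Agent.P236C.Tab
import Vale.Agent.P236C.D.P
import Vale.Agent.P236C.D.Xs1
import Vale.Agent.P236C.D.U1_1

noncomputable section

namespace Vale.Agent.P236C.D

theorem cu1_1_0 : chkU (ctxK tb k2_1) (posK k2_1 (getL 0 q2_1) (getL 0 b2_1)) ds2 y2_1 z2_1 (nat_lit 4)
    (pickX xs1 [nat_lit 0, nat_lit 3, nat_lit 4])
    (pickU u1_1 [nat_lit 0, nat_lit 3, nat_lit 4]) = true := by
  decide +kernel

end Vale.Agent.P236C.D

end
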