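import Vale.Agent.P236C.Tab
import Vale.Agent.P236C.D.P
import Vale.Agent.P236C.D.Xs10
import Vale.Agent.P236C.D.U10_0

noncomputable section

namespace Vale.Agent.P236C.D

theorem cu10_0_0 : chkU (ctxK tb k11_0) (posK k11_0 (getL 0 q11_0) (getL 0 b11_0)) ds11 y11_0 z11_0 (nat_lit 0)
    (pickX xs10 [nat_lit 0, nat_lit 5, nat_lit 8, nat_lit 10, nat_lit 12, nat_lit 17, nat_lit 18, nat_lit 20, nat_lit 22, nat_lit 27, nat_lit 29, nat_lit 32, nat_lit 36, nat_lit 38, nat_lit 42, nat_lit 43])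
    (pickU u10_0 [nat_lit 0, nat_lit 5, nat_lit 8, nat_lit 10, nat_lit 12, nat_lit 17, nat_lit 18, nat_lit 20, nat_lit 22, nat_lit 27, nat_lit 29, nat_lit 32, nat_lit 36, nat_lit 38, nat_lit 42, nat_lit 43]) = true := by
  decide +kernel

end Vale.Agent.P236C.D

end
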