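import Vale.Agent.P236C.Tab
import Vale.Agent.P236C.D.P
import Vale.Agent.P236C.D.Xs10
import Vale.Agent.P236C.D.U10_0

noncomputable section

namespace Vale.Agent.P236C.D

theorem cu10_0_1 : chkU (ctxK tb k11_0) (posK k11_0 (getL 0 q11_0) (getL 0 b11_0)) ds11 y11_0 z11_0 (nat_lit 0)
    (pickX xs10 [nat_lit 1, nat_lit 4, nat_lit 7, nat_lit 9, nat_lit 16, nat_lit 19, nat_lit 24, nat_lit 25, nat_lit 28, nat_lit 33, nat_lit 34, nat_lit 37, nat_lit 40])
    (pickU u10_0 [nat_lit 1, nat_lit 4, nat_lit 7, nat_lit 9, nat_lit 16, nat_lit 19, nat_lit 24, nat_lit 25, nat_lit 28, nat_lit 33, nat_lit 34, nat_lit 37, nat_lit 40]) = true := by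
  decide +kernel

end Vale.Agent.P236C.D

end
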