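import Vale.Agent.P236C.Tab
import Vale.Agent.P236C.D.P
import Vale.Agent.P236C.D.Xs10
import Vale.Agent.P236C.D.U10_0

noncomputable section

namespace Vale.Agent.P236C.D

theorem cu10_0_2 : chkU (ctxK tb k11_0) (posK k11_0 (getL 0 q11_0) (getL 0 b11_0)) ds11 y11_0 z11_0 (nat_lit 0)
    (pickX xs10 [nat_lit 2, nat_lit 3, nat_lit 6, nat_lit 11, nat_lit 13, nat_lit 14, nat_lit 15, nat_lit 21, nat_lit 23, nat_lit 26, nat_lit 30, nat_lit 31, nat_lit 35, nat_lit 39, nat_lit 41])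
    (pickU u10_0 [nat_lit 2, nat_lit 3, nat_lit 6, nat_lit 11, nat_lit 13, nat_lit 14, nat_lit 15, nat_lit 21, nat_lit 23, nat_lit 26, nat_lit 30, nat_lit 31, nat_lit 35, nat_lit 39, nat_lit 41]) = true := by
  decide +kernel

theorem wu10_0 : wf4 u10_0 = true := by
  decide +kernel

end Vale.Agent.P236C.D

end
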