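import Vale.Agent.P236C.Tab
import Vale.Agent.P236C.D.P
import Vale.Agent.P236C.D.Xs10
import Vale.Agent.P236C.D.U10_1

noncomputable section

namespace Vale.Agent.P236C.D

theorem cu10_1_0 : chkU (ctxK tb k11_1) (posK k11_1 (getL 0 q11_1) (getL 0 b11_1)) ds11 y11_1 z11_1 (nat_lit 9)
    (pickX xs10 [nat_lit 0, nat_lit 4, nat_lit 8, nat_lit 9, nat_lit 16, nat_lit 19, nat_lit 24, nat_lit 27, nat_lit 28, nat_lit 31, nat_lit 34, nat_lit 37, nat_lit 40, nat_lit 43])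
    (pickU u10_1 [nat_lit 0, nat_lit 4, nat_lit 8, nat_lit 9, nat_lit 16, nat_lit 19, nat_lit 24, nat_lit 27, nat_lit 28, nat_lit 31, nat_lit 34, nat_lit 37, nat_lit 40, nat_lit 43]) = true := by
  decide +kernel

end Vale.Agent.P236C.D

end
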