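import Vale.Agent.P236C.Tab
import Vale.Agent.P236C.D.P
import Vale.Agent.P236C.D.Xs10
import Vale.Agent.P236C.D.U10_1

noncomputable section

namespace Vale.Agent.P236C.D

theorem cu10_1_1 : chkU (ctxK tb k11_1) (posK k11_1 (getL 0 q11_1) (getL 0 b11_1)) ds11 y11_1 z11_1 (nat_lit 9)
    (pickX xs10 [nat_lit 1, nat_lit 5, nat_lit 7, nat_lit 10, nat_lit 13, nat_lit 14, nat_lit 15, nat_lit 21, nat_lit 23, nat_lit 25, nat_lit 30, nat_lit 32, nat_lit 36, nat_lit 39, nat_lit 41])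
    (pickU u10_1 [nat_lit 1, nat_lit 5, nat_lit 7, nat_lit 10, nat_lit 13, nat_lit 14, nat_lit 15, nat_lit 21, nat_lit 23, nat_lit 25, nat_lit 30, nat_lit 32, nat_lit 36, nat_lit 39, nat_lit 41]) = true := by
  decide +kernel

end Vale.Agent.P236C.D

end
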