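import Vale.Agent.P236C.Tab
import Vale.Agent.P236C.D.P
import Vale.Agent.P236C.D.Xs10
import Vale.Agent.P236C.D.U10_1

noncomputable section

namespace Vale.Agent.P236C.D

theorem cu10_1_2 : chkU (ctxK tb k11_1) (posK k11_1 (getL 0 q11_1) (getL 0 b11_1)) ds11 y11_1 z11_1 (nat_lit 9)
    (pickX xs10 [nat_lit 2, nat_lit 3, nat_lit 6, nat_lit 11, nat_lit 12, nat_lit 17, nat_lit 18, nat_lit 20, nat_lit 22, nat_lit 26, nat_lit 29, nat_lit 33, nat_lit 35, nat_lit 38, nat_lit 42])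
    (pickU u10_1 [nat_lit 2, nat_lit 3, nat_lit 6, nat_lit 11, nat_lit 12, nat_lit 17, nat_lit 18, nat_lit 20, nat_lit 22, nat_lit 26, nat_lit 29, nat_lit 33, nat_lit 35, nat_lit 38, nat_lit 42]) = true := by
  decide +kernel

theorem wu10_1 : wf4 u10_1 = true := by
  decide +kernel

end Vale.Agent.P236C.D

end
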