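import Vale.Agent.P236C.Tab
import Vale.Agent.P236C.D.P
import Vale.Agent.P236C.D.Xs11
import Vale.Agent.P236C.D.U11_0

noncomputable section

namespace Vale.Agent.P236C.D

theorem cu11_0_1 : chkU (ctxK tb k12_0) (posK k12_0 (getL 0 q12_0) (getL 0 b12_0)) ds12 y12_0 z12_0 (nat_lit 0)
    (pickX xs11 [nat_lit 1, nat_lit 4, nat_lit 8, nat_lit 9, nat_lit 15, nat_lit 19, nat_lit 22, nat_lit 24, nat_lit 27, nat_lit 31, nat_lit 32, nat_lit 37, nat_lit 38, nat_lit 43])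
    (pickU u11_0 [nat_lit 1, nat_lit 4, nat_lit 8, nat_lit 9, nat_lit 15, nat_lit 19, nat_lit 22, nat_lit 24, nat_lit 27, nat_lit 31, nat_lit 32, nat_lit 37, nat_lit 38, nat_lit 43]) = true := by
  decide +kernel

end Vale.Agent.P236C.D

end
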