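import Vale.Agent.P236C.Tab
import Vale.Agent.P236C.D.P
import Vale.Agent.P236C.D.Xs11
import Vale.Agent.P236C.D.U11_0

noncomputable section

namespace Vale.Agent.P236C.D

theorem cu11_0_2 : chkU (ctxK tb k12_0) (posK k12_0 (getL 0 q12_0) (getL 0 b12_0)) ds12 y12_0 z12_0 (nat_lit 0)
    (pickX xs11 [nat_lit 2, nat_lit 3, nat_lit 7, nat_lit 10, nat_lit 13, nat_lit 16, nat_lit 18, nat_lit 20, nat_lit 25, nat_lit 26, nat_lit 29, nat_lit 34, nat_lit 35, nat_lit 40, nat_lit 41])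
    (pickU u11_0 [nat_lit 2, nat_lit 3, nat_lit 7, nat_lit 10, nat_lit 13, nat_lit 16, nat_lit 18, nat_lit 20, nat_lit 25, nat_lit 26, nat_lit 29, nat_lit 34, nat_lit 35, nat_lit 40, nat_lit 41]) = true := by
  decide +kernel

theorem wu11_0 : wf4 u11_0 = true := by
  decide +kernel

end Vale.Agent.P236C.D

end
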