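import Vale.Agent.P236C.Tab
import Vale.Agent.P236C.D.P
import Vale.Agent.P236C.D.Xs11
import Vale.Agent.P236C.D.U11_1

noncomputable section

namespace Vale.Agent.P236C.D

theorem cu11_1_0 : chkU (ctxK tb k12_1) (posK k12_1 (getL 0 q12_1) (getL 0 b12_1)) ds12 y12_1 z12_1 (nat_lit 8)
    (pickX xs11 [nat_lit 0, nat_lit 5, nat_lit 6, nat_lit 9, nat_lit 15, nat_lit 17, nat_lit 21, nat_lit 25, nat_lit 28, nat_lit 29, nat_lit 33, nat_lit 37, nat_lit 38, nat_lit 41])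
    (pickU u11_1 [nat_lit 0, nat_lit 5, nat_lit 6, nat_lit 9, nat_lit 15, nat_lit 17, nat_lit 21, nat_lit 25, nat_lit 28, nat_lit 29, nat_lit 33, nat_lit 37, nat_lit 38, nat_lit 41]) = true := by
  decide +kernel

end Vale.Agent.P236C.D

end
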