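import Vale.Agent.P236C.Tab
import Vale.Agent.P236C.D.P
import Vale.Agent.P236C.D.Xs11
import Vale.Agent.P236C.D.U11_1

noncomputable section

namespace Vale.Agent.P236C.D

theorem cu11_1_1 : chkU (ctxK tb k12_1) (posK k12_1 (getL 0 q12_1) (getL 0 b12_1)) ds12 y12_1 z12_1 (nat_lit 8)
    (pickX xs11 [nat_lit 1, nat_lit 4, nat_lit 8, nat_lit 10, nat_lit 12, nat_lit 16, nat_lit 19, nat_lit 20, nat_lit 23, nat_lit 27, nat_lit 31, nat_lit 34, nat_lit 35, nat_lit 40, nat_lit 42, nat_lit 43])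
    (pickU u11_1 [nat_lit 1, nat_lit 4, nat_lit 8, nat_lit 10, nat_lit 12, nat_lit 16, nat_lit 19, nat_lit 20, nat_lit 23, nat_lit 27, nat_lit 31, nat_lit 34, nat_lit 35, nat_lit 40, nat_lit 42, nat_lit 43]) = true := by
  decide +kernel

end Vale.Agent.P236C.D

end
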