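import Vale.Agent.P236C.Tab
import Vale.Agent.P236C.D.P
import Vale.Agent.P236C.D.Xs12
import Vale.Agent.P236C.D.U12_0

noncomputable section

namespace Vale.Agent.P236C.D

theorem cu12_0_0 : chkU (ctxK tb k13_0) (posK k13_0 (getL 0 q13_0) (getL 0 b13_0)) ds13 y13_0 z13_0 (nat_lit 0)
    (pickX xs12 [nat_lit 0, nat_lit 3, nat_lit 5, nat_lit 6, nat_lit 9, nat_lit 10, nat_lit 13, nat_lit 14, nat_lit 17, nat_lit 19, nat_lit 20, nat_lit 23, nat_lit 25, nat_lit 27, nat_lit 28, nat_lit 30, nat_lit 33, nat_lit 35, nat_lit 36, nat_lit 39])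
    (pickU u12_0 [nat_lit 0, nat_lit 3, nat_lit 5, nat_lit 6, nat_lit 9, nat_lit 10, nat_lit 13, nat_lit 14, nat_lit 17, nat_lit 19, nat_lit 20, nat_lit 23, nat_lit 25, nat_lit 27, nat_lit 28, nat_lit 30, nat_lit 33, nat_lit 35, nat_lit 36, nat_lit 39]) = true := by
  decide +kernel

end Vale.Agent.P236C.D

end
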