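import Vale.Agent.P236C.Tab
import Vale.Agent.P236C.D.P
import Vale.Agent.P236C.D.Xs12
import Vale.Agent.P236C.D.U12_0

noncomputable section

namespace Vale.Agent.P236C.D

theorem cu12_0_1 : chkU (ctxK tb k13_0) (posK k13_0 (getL 0 q13_0) (getL 0 b13_0)) ds13 y13_0 z13_0 (nat_lit 0)
    (pickX xs12 [nat_lit 1, nat_lit 2, nat_lit 4, nat_lit 7, nat_lit 8, nat_lit 11, nat_lit 12, nat_lit 15, nat_lit 16, nat_lit 18, nat_lit 21, nat_lit 22, nat_lit 24, nat_lit 26, nat_lit 29, nat_lit 31, nat_lit 32, nat_lit 34, nat_lit 37, nat_lit 38])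
    (pickU u12_0 [nat_lit 1, nat_lit 2, nat_lit 4, nat_lit 7, nat_lit 8, nat_lit 11, nat_lit 12, nat_lit 15, nat_lit 16, nat_lit 18, nat_lit 21, nat_lit 22, nat_lit 24, nat_lit 26, nat_lit 29, nat_lit 31, nat_lit 32, nat_lit 34, nat_lit 37, nat_lit 38]) = true := by
  decide +kernel

theorem wu12_0 : wf4 u12_0 = true := by
  decide +kernel

end Vale.Agent.P236C.D

end
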