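import Vale.Agent.P236C.Tab
import Vale.Agent.P236C.D.P
import Vale.Agent.P236C.D.Xs12
import Vale.Agent.P236C.D.U12_1

noncomputable section

namespace Vale.Agent.P236C.D

theorem cu12_1_1 : chkU (ctxK tb k13_1) (posK k13_1 (getL 0 q13_1) (getL 0 b13_1)) ds13 y13_1 z13_1 (nat_lit 7)
    (pickX xs12 [nat_lit 1, nat_lit 2, nat_lit 5, nat_lit 7, nat_lit 8, nat_lit 11, nat_lit 12, nat_lit 15, nat_lit 17, nat_lit 18, nat_lit 20, nat_lit 22, nat_lit 25, nat_lit 26, nat_lit 28, nat_lit 31, nat_lit 32, nat_lit 35, nat_lit 36, nat_lit 39])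
    (pickU u12_1 [nat_lit 1, nat_lit 2, nat_lit 5, nat_lit 7, nat_lit 8, nat_lit 11, nat_lit 12, nat_lit 15, nat_lit 17, nat_lit 18, nat_lit 20, nat_lit 22, nat_lit 25, nat_lit 26, nat_lit 28, nat_lit 31, nat_lit 32, nat_lit 35, nat_lit 36, nat_lit 39]) = true := by
  decide +kernel

theorem wu12_1 : wf4 u12_1 = true := by
  decide +kernel

end Vale.Agent.P236C.D

end
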