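import Vale.Agent.P236C.Tab
import Vale.Agent.P236C.D.P
import Vale.Agent.P236C.D.Xs13
import Vale.Agent.P236C.D.U13_0

noncomputable section

namespace Vale.Agent.P236C.D

theorem cu13_0_0 : chkU (ctxK tb k14_0) (posK k14_0 (getL 0 q14_0) (getL 0 b14_0)) ds14 y14_0 z14_0 (nat_lit 0)
    (pickX xs13 [nat_lit 0, nat_lit 3, nat_lit 5, nat_lit 6, nat_lit 8, nat_lit 10, nat_lit 13, nat_lit 14, nat_lit 17, nat_lit 18, nat_lit 21, nat_lit 22, nat_lit 25, nat_lit 26, nat_lit 28, nat_lit 30, nat_lit 32])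
    (pickU u13_0 [nat_lit 0, nat_lit 3, nat_lit 5, nat_lit 6, nat_lit 8, nat_lit 10, nat_lit 13, nat_lit 14, nat_lit 17, nat_lit 18, nat_lit 21, nat_lit 22, nat_lit 25, nat_lit 26, nat_lit 28, nat_lit 30, nat_lit 32]) = true := by
  decide +kernel

end Vale.Agent.P236C.D

end
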