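import Vale.Agent.P236C.Tab
import Vale.Agent.P236C.D.P
import Vale.Agent.P236C.D.Xs13
import Vale.Agent.P236C.D.U13_0

noncomputable section

namespace Vale.Agent.P236C.D

theorem cu13_0_1 : chkU (ctxK tb k14_0) (posK k14_0 (getL 0 q14_0) (getL 0 b14_0)) ds14 y14_0 z14_0 (nat_lit 0)
    (pickX xs13 [nat_lit 1, nat_lit 2, nat_lit 4, nat_lit 7, nat_lit 9, nat_lit 11, nat_lit 12, nat_lit 15, nat_lit 16, nat_lit 19, nat_lit 20, nat_lit 23, nat_lit 24, nat_lit 27, nat_lit 29, nat_lit 31, nat_lit 33])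
    (pickU u13_0 [nat_lit 1, nat_lit 2, nat_lit 4, nat_lit 7, nat_lit 9, nat_lit 11, nat_lit 12, nat_lit 15, nat_lit 16, nat_lit 19, nat_lit 20, nat_lit 23, nat_lit 24, nat_lit 27, nat_lit 29, nat_lit 31, nat_lit 33]) = true := by
  decide +kernel

theorem wu13_0 : wf4 u13_0 = true := by
  decide +kernel

end Vale.Agent.P236C.D

end
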