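import Vale.Agent.P236C.Tab
import Vale.Agent.P236C.D.P
import Vale.Agent.P236C.D.Xs13
import Vale.Agent.P236C.D.U13_1

noncomputable section

namespace Vale.Agent.P236C.D

theorem cu13_1_0 : chkU (ctxK tb k14_1) (posK k14_1 (getL 0 q14_1) (getL 0 b14_1)) ds14 y14_1 z14_1 (nat_lit 7)
    (pickX xs13 [nat_lit 0, nat_lit 3, nat_lit 5, nat_lit 6, nat_lit 8, nat_lit 10, nat_lit 12, nat_lit 14, nat_lit 15, nat_lit 19, nat_lit 20, nat_lit 23, nat_lit 24, nat_lit 27, nat_lit 29, nat_lit 30, nat_lit 33])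
    (pickU u13_1 [nat_lit 0, nat_lit 3, nat_lit 5, nat_lit 6, nat_lit 8, nat_lit 10, nat_lit 12, nat_lit 14, nat_lit 15, nat_lit 19, nat_lit 20, nat_lit 23, nat_lit 24, nat_lit 27, nat_lit 29, nat_lit 30, nat_lit 33]) = true := by
  decide +kernel

end Vale.Agent.P236C.D

end
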