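import Vale.Agent.P236C.Tab
import Vale.Agent.P236C.D.P
import Vale.Agent.P236C.D.Xs13
import Vale.Agent.P236C.D.U13_1

noncomputable section

namespace Vale.Agent.P236C.D

theorem cu13_1_1 : chkU (ctxK tb k14_1) (posK k14_1 (getL 0 q14_1) (getL 0 b14_1)) ds14 y14_1 z14_1 (nat_lit 7)
    (pickX xs13 [nat_lit 1, nat_lit 2, nat_lit 4, nat_lit 7, nat_lit 9, nat_lit 11, nat_lit 13, nat_lit 16, nat_lit 17, nat_lit 18, nat_lit 21, nat_lit 22, nat_lit 25, nat_lit 26, nat_lit 28, nat_lit 31, nat_lit 32])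
    (pickU u13_1 [nat_lit 1, nat_lit 2, nat_lit 4, nat_lit 7, nat_lit 9, nat_lit 11, nat_lit 13, nat_lit 16, nat_lit 17, nat_lit 18, nat_lit 21, nat_lit 22, nat_lit 25, nat_lit 26, nat_lit 28, nat_lit 31, nat_lit 32]) = true := by
  decide +kernel

theorem wu13_1 : wf4 u13_1 = true := by
  decide +kernel

end Vale.Agent.P236C.D

end
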