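import Vale.Agent.P236C.Tab
import Vale.Agent.P236C.D.P
import Vale.Agent.P236C.D.Xs14
import Vale.Agent.P236C.D.U14_0

noncomputable section

namespace Vale.Agent.P236C.D

theorem cu14_0_0 : chkU (ctxK tb k15_0) (posK k15_0 (getL 0 q15_0) (getL 0 b15_0)) ds15 y15_0 z15_0 (nat_lit 0)
    (pickX xs14 [nat_lit 0, nat_lit 3, nat_lit 5, nat_lit 6, nat_lit 9, nat_lit 10, nat_lit 13, nat_lit 14, nat_lit 17, nat_lit 18, nat_lit 21, nat_lit 22, nat_lit 25, nat_lit 26, nat_lit 29, nat_lit 31])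
    (pickU u14_0 [nat_lit 0, nat_lit 3, nat_lit 5, nat_lit 6, nat_lit 9, nat_lit 10, nat_lit 13, nat_lit 14, nat_lit 17, nat_lit 18, nat_lit 21, nat_lit 22, nat_lit 25, nat_lit 26, nat_lit 29, nat_lit 31]) = true := by
  decide +kernel

end Vale.Agent.P236C.D

end
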