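import Vale.Agent.P236C.Tab
import Vale.Agent.P236C.D.P
import Vale.Agent.P236C.D.Xs14
import Vale.Agent.P236C.D.U14_0

noncomputable section

namespace Vale.Agent.P236C.D

theorem cu14_0_1 : chkU (ctxK tb k15_0) (posK k15_0 (getL 0 q15_0) (getL 0 b15_0)) ds15 y15_0 z15_0 (nat_lit 0)
    (pickX xs14 [nat_lit 1, nat_lit 2, nat_lit 4, nat_lit 7, nat_lit 8, nat_lit 11, nat_lit 12, nat_lit 15, nat_lit 16, nat_lit 19, nat_lit 20, nat_lit 23, nat_lit 24, nat_lit 27, nat_lit 28, nat_lit 30])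
    (pickU u14_0 [nat_lit 1, nat_lit 2, nat_lit 4, nat_lit 7, nat_lit 8, nat_lit 11, nat_lit 12, nat_lit 15, nat_lit 16, nat_lit 19, nat_lit 20, nat_lit 23, nat_lit 24, nat_lit 27, nat_lit 28, nat_lit 30]) = true := by
  decide +kernel

theorem wu14_0 : wf4 u14_0 = true := by
  decide +kernel

end Vale.Agent.P236C.D

end
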