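import Vale.Agent.P236C.Tab
import Vale.Agent.P236C.D.P
import Vale.Agent.P236C.D.Xs15
import Vale.Agent.P236C.D.U15_0

noncomputable section

namespace Vale.Agent.P236C.D

theorem cu15_0_1 : chkU (ctxK tb k16_0) (posK k16_0 (getL 0 q16_0) (getL 0 b16_0)) ds16 y16_0 z16_0 (nat_lit 0)
    (pickX xs15 [nat_lit 1, nat_lit 4, nat_lit 8, nat_lit 9, nat_lit 15, nat_lit 19, nat_lit 22, nat_lit 25])
    (pickU u15_0 [nat_lit 1, nat_lit 4, nat_lit 8, nat_lit 9, nat_lit 15, nat_lit 19, nat_lit 22, nat_lit 25]) = true := by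
  decide +kernel

end Vale.Agent.P236C.D

end
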