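import Vale.Agent.P236C.Tab
import Vale.Agent.P236C.D.P
import Vale.Agent.P236C.D.Xs15
import Vale.Agent.P236C.D.U15_0

noncomputable section

namespace Vale.Agent.P236C.D

theorem cu15_0_2 : chkU (ctxK tb k16_0) (posK k16_0 (getL 0 q16_0) (getL 0 b16_0)) ds16 y16_0 z16_0 (nat_lit 0)
    (pickX xs15 [nat_lit 2, nat_lit 3, nat_lit 7, nat_lit 11, nat_lit 13, nat_lit 14, nat_lit 18, nat_lit 21, nat_lit 23, nat_lit 26])
    (pickU u15_0 [nat_lit 2, nat_lit 3, nat_lit 7, nat_lit 11, nat_lit 13, nat_lit 14, nat_lit 18, nat_lit 21, nat_lit 23, nat_lit 26]) = true := by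
  decide +kernel

theorem wu15_0 : wf4 u15_0 = true := by
  decide +kernel

end Vale.Agent.P236C.D

end
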