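import Vale.Agent.P236C.Tab
import Vale.Agent.P236C.D.P
import Vale.Agent.P236C.D.Xs17
import Vale.Agent.P236C.D.U17_0

noncomputable section

namespace Vale.Agent.P236C.D

theorem cu17_0_0 : chkU (ctxK tb k18_0) (posK k18_0 (getL 0 q18_0) (getL 0 b18_0)) ds18 y18_0 z18_0 (nat_lit 0)
    (pickX xs17 [nat_lit 0, nat_lit 3, nat_lit 5, nat_lit 6, nat_lit 8, nat_lit 10, nat_lit 12, nat_lit 14, nat_lit 15, nat_lit 17, nat_lit 20, nat_lit 23])
    (pickU u17_0 [nat_lit 0, nat_lit 3, nat_lit 5, nat_lit 6, nat_lit 8, nat_lit 10, nat_lit 12, nat_lit 14, nat_lit 15, nat_lit 17, nat_lit 20, nat_lit 23]) = true := by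
  decide +kernel

end Vale.Agent.P236C.D

end
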