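import Vale.Agent.P236C.Tab
import Vale.Agent.P236C.D.P
import Vale.Agent.P236C.D.Xs18
import Vale.Agent.P236C.D.U18_0

noncomputable section

namespace Vale.Agent.P236C.D

theorem cu18_0_0 : chkU (ctxK tb k19_0) (posK k19_0 (getL 0 q19_0) (getL 0 b19_0)) ds19 y19_0 z19_0 (nat_lit 0)
    (pickX xs18 [nat_lit 0, nat_lit 3, nat_lit 4, nat_lit 6, nat_lit 9, nat_lit 11, nat_lit 12, nat_lit 14, nat_lit 17, nat_lit 19, nat_lit 21, nat_lit 22])
    (pickU u18_0 [nat_lit 0, nat_lit 3, nat_lit 4, nat_lit 6, nat_lit 9, nat_lit 11, nat_lit 12, nat_lit 14, nat_lit 17, nat_lit 19, nat_lit 21, nat_lit 22]) = true := by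
  decide +kernel

end Vale.Agent.P236C.D

end
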