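import Vale.Agent.P236C.Tab
import Vale.Agent.P236C.D.P
import Vale.Agent.P236C.D.Xs2
import Vale.Agent.P236C.D.U2_0

noncomputable section

namespace Vale.Agent.P236C.D

theorem cu2_0_0 : chkU (ctxK tb k3_0) (posK k3_0 (getL 0 q3_0) (getL 0 b3_0)) ds3 y3_0 z3_0 (nat_lit 0)
    (pickX xs2 [nat_lit 0, nat_lit 7, nat_lit 8])
    (pickU u2_0 [nat_lit 0, nat_lit 7, nat_lit 8]) = true := by
  decide +kernel

end Vale.Agent.P236C.D

end
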