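import Vale.Agent.P236C.Tab
import Vale.Agent.P236C.D.P
import Vale.Agent.P236C.D.Xs2
import Vale.Agent.P236C.D.U2_1

noncomputable section

namespace Vale.Agent.P236C.D

theorem cu2_1_3 : chkU (ctxK tb k3_1) (posK k3_1 (getL 0 q3_1) (getL 0 b3_1)) ds3 y3_1 z3_1 (nat_lit 8)
    (pickX xs2 [nat_lit 3, nat_lit 4, nat_lit 11, nat_lit 12, nat_lit 13, nat_lit 14, nat_lit 15])
    (pickU u2_1 [nat_lit 3, nat_lit 4, nat_lit 11, nat_lit 12, nat_lit 13, nat_lit 14, nat_lit 15]) = true := by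
  decide +kernel

theorem wu2_1 : wf4 u2_1 = true := by
  decide +kernel

end Vale.Agent.P236C.D

end
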