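import Vale.Agent.P236C.Tab
import Vale.Agent.P236C.D.P
import Vale.Agent.P236C.D.Xs29
import Vale.Agent.P236C.D.U29_0

noncomputable section

namespace Vale.Agent.P236C.D

theorem cu29_0_0 : chkU (ctxK tb k30_0) (posK k30_0 (getL 0 q30_0) (getL 0 b30_0)) ds30 y30_0 z30_0 (nat_lit 0)
    (pickX xs29 [nat_lit 0, nat_lit 1, nat_lit 2, nat_lit 3, nat_lit 4, nat_lit 5, nat_lit 6, nat_lit 7, nat_lit 8, nat_lit 9, nat_lit 10, nat_lit 11, nat_lit 12, nat_lit 13, nat_lit 14, nat_lit 15, nat_lit 16, nat_lit 17, nat_lit 18])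
    (pickU u29_0 [nat_lit 0, nat_lit 1, nat_lit 2, nat_lit 3, nat_lit 4, nat_lit 5, nat_lit 6, nat_lit 7, nat_lit 8, nat_lit 9, nat_lit 10, nat_lit 11, nat_lit 12, nat_lit 13, nat_lit 14, nat_lit 15, nat_lit 16, nat_lit 17, nat_lit 18]) = true := by
  decide +kernel

theorem wu29_0 : wf4 u29_0 = true := by
  decide +kernel

end Vale.Agent.P236C.D

end
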