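import Vale.Agent.P236C.Tab
import Vale.Agent.P236C.D.P
import Vale.Agent.P236C.D.Xs3
import Vale.Agent.P236C.D.U3_0

noncomputable section

namespace Vale.Agent.P236C.D

theorem cu3_0_2 : chkU (ctxK tb k4_0) (posK k4_0 (getL 0 q4_0) (getL 0 b4_0)) ds4 y4_0 z4_0 (nat_lit 0)
    (pickX xs3 [nat_lit 2, nat_lit 8, nat_lit 16, nat_lit 19, nat_lit 22])
    (pickU u3_0 [nat_lit 2, nat_lit 8, nat_lit 16, nat_lit 19, nat_lit 22]) = true := by
  decide +kernel

end Vale.Agent.P236C.D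

end
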