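import Vale.Agent.P236C.Tab
import Vale.Agent.P236C.D.P
import Vale.Agent.P236C.D.Xs3
import Vale.Agent.P236C.D.U3_1

noncomputable section

namespace Vale.Agent.P236C.D

theorem cu3_1_4 : chkU (ctxK tb k4_1) (posK k4_1 (getL 0 q4_1) (getL 0 b4_1)) ds4 y4_1 z4_1 (nat_lit 10)
    (pickX xs3 [nat_lit 4, nat_lit 9, nat_lit 13, nat_lit 22])
    (pickU u3_1 [nat_lit 4, nat_lit 9, nat_lit 13, nat_lit 22]) = true := by
  decide +kernel

end Vale.Agent.P236C.D

end
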