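import Vale.Agent.P236C.Tab
import Vale.Agent.P236C.D.P
import Vale.Agent.P236C.D.Xs4
import Vale.Agent.P236C.D.U4_0

noncomputable section

namespace Vale.Agent.P236C.D

theorem cu4_0_2 : chkU (ctxK tb k5_0) (posK k5_0 (getL 0 q5_0) (getL 0 b5_0)) ds5 y5_0 z5_0 (nat_lit 0)
    (pickX xs4 [nat_lit 2, nat_lit 8, nat_lit 16, nat_lit 18])
    (pickU u4_0 [nat_lit 2, nat_lit 8, nat_lit 16, nat_lit 18]) = true := by
  decide +kernel

end Vale.Agent.P236C.D

end
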