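import Vale.Agent.P236C.Tab
import Vale.Agent.P236C.D.P
import Vale.Agent.P236C.D.Xs4
import Vale.Agent.P236C.D.U4_0

noncomputable section

namespace Vale.Agent.P236C.D

theorem cu4_0_5 : chkU (ctxK tb k5_0) (posK k5_0 (getL 0 q5_0) (getL 0 b5_0)) ds5 y5_0 z5_0 (nat_lit 0)
    (pickX xs4 [nat_lit 4, nat_lit 6, nat_lit 17, nat_lit 19, nat_lit 32, nat_lit 33, nat_lit 35])
    (pickU u4_0 [nat_lit 4, nat_lit 6, nat_lit 17, nat_lit 19, nat_lit 32, nat_lit 33, nat_lit 35]) = true := by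
  decide +kernel

theorem wu4_0 : wf4 u4_0 = true := by
  decide +kernel

end Vale.Agent.P236C.D

end
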