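import Vale.Agent.P236C.Tab
import Vale.Agent.P236C.D.P
import Vale.Agent.P236C.D.Xs4
import Vale.Agent.P236C.D.U4_1

noncomputable section

namespace Vale.Agent.P236C.D

theorem cu4_1_2 : chkU (ctxK tb k5_1) (posK k5_1 (getL 0 q5_1) (getL 0 b5_1)) ds5 y5_1 z5_1 (nat_lit 10)
    (pickX xs4 [nat_lit 2, nat_lit 10, nat_lit 15, nat_lit 30, nat_lit 32, nat_lit 33, nat_lit 34])
    (pickU u4_1 [nat_lit 2, nat_lit 10, nat_lit 15, nat_lit 30, nat_lit 32, nat_lit 33, nat_lit 34]) = true := by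
  decide +kernel

end Vale.Agent.P236C.D

end
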