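import Vale.Agent.P236C.Tab
import Vale.Agent.P236C.D.P
import Vale.Agent.P236C.D.Xs5
import Vale.Agent.P236C.D.U5_0

noncomputable section

namespace Vale.Agent.P236C.D

theorem cu5_0_4 : chkU (ctxK tb k6_0) (posK k6_0 (getL 0 q6_0) (getL 0 b6_0)) ds6 y6_0 z6_0 (nat_lit 0)
    (pickX xs5 [nat_lit 4, nat_lit 7, nat_lit 12, nat_lit 20, nat_lit 27, nat_lit 33])
    (pickU u5_0 [nat_lit 4, nat_lit 7, nat_lit 12, nat_lit 20, nat_lit 27, nat_lit 33]) = true := by
  decide +kernel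

end Vale.Agent.P236C.D

end
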