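import Vale.Agent.P236C.Tab
import Vale.Agent.P236C.D.P
import Vale.Agent.P236C.D.Xs5
import Vale.Agent.P236C.D.U5_0

noncomputable section

namespace Vale.Agent.P236C.D

theorem cu5_0_5 : chkU (ctxK tb k6_0) (posK k6_0 (getL 0 q6_0) (getL 0 b6_0)) ds6 y6_0 z6_0 (nat_lit 0)
    (pickX xs5 [nat_lit 5, nat_lit 6, nat_lit 10, nat_lit 19, nat_lit 29, nat_lit 34])
    (pickU u5_0 [nat_lit 5, nat_lit 6, nat_lit 10, nat_lit 19, nat_lit 29, nat_lit 34]) = true := by
  decide +kernel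

theorem wu5_0 : wf4 u5_0 = true := by
  decide +kernel

end Vale.Agent.P236C.D

end
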