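import Vale.Agent.P236C.Tab
import Vale.Agent.P236C.D.P
import Vale.Agent.P236C.D.Xs5
import Vale.Agent.P236C.D.U5_1

noncomputable section

namespace Vale.Agent.P236C.D

theorem cu5_1_2 : chkU (ctxK tb k6_1) (posK k6_1 (getL 0 q6_1) (getL 0 b6_1)) ds6 y6_1 z6_1 (nat_lit 10)
    (pickX xs5 [nat_lit 2, nat_lit 7, nat_lit 10, nat_lit 16, nat_lit 23, nat_lit 26, nat_lit 29, nat_lit 36, nat_lit 37, nat_lit 38, nat_lit 43, nat_lit 44])
    (pickU u5_1 [nat_lit 2, nat_lit 7, nat_lit 10, nat_lit 16, nat_lit 23, nat_lit 26, nat_lit 29, nat_lit 36, nat_lit 37, nat_lit 38, nat_lit 43, nat_lit 44]) = true := by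
  decide +kernel

end Vale.Agent.P236C.D

end
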