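import Vale.Agent.P236C.Tab
import Vale.Agent.P236C.D.P
import Vale.Agent.P236C.D.Xs6
import Vale.Agent.P236C.D.U6_0

noncomputable section

namespace Vale.Agent.P236C.D

theorem cu6_0_2 : chkU (ctxK tb k7_0) (posK k7_0 (getL 0 q7_0) (getL 0 b7_0)) ds7 y7_0 z7_0 (nat_lit 0)
    (pickX xs6 [nat_lit 2, nat_lit 4, nat_lit 9, nat_lit 15, nat_lit 16, nat_lit 23, nat_lit 27, nat_lit 31, nat_lit 33, nat_lit 38, nat_lit 41])
    (pickU u6_0 [nat_lit 2, nat_lit 4, nat_lit 9, nat_lit 15, nat_lit 16, nat_lit 23, nat_lit 27, nat_lit 31, nat_lit 33, nat_lit 38, nat_lit 41]) = true := by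
  decide +kernel

end Vale.Agent.P236C.D

end
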