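import Vale.Agent.P236C.Tab
import Vale.Agent.P236C.D.P
import Vale.Agent.P236C.D.Xs6
import Vale.Agent.P236C.D.U6_0

noncomputable section

namespace Vale.Agent.P236C.D

theorem cu6_0_3 : chkU (ctxK tb k7_0) (posK k7_0 (getL 0 q7_0) (getL 0 b7_0)) ds7 y7_0 z7_0 (nat_lit 0)
    (pickX xs6 [nat_lit 3, nat_lit 5, nat_lit 8, nat_lit 14, nat_lit 19, nat_lit 22, nat_lit 24, nat_lit 29, nat_lit 34, nat_lit 36, nat_lit 43])
    (pickU u6_0 [nat_lit 3, nat_lit 5, nat_lit 8, nat_lit 14, nat_lit 19, nat_lit 22, nat_lit 24, nat_lit 29, nat_lit 34, nat_lit 36, nat_lit 43]) = true := by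
  decide +kernel

theorem wu6_0 : wf4 u6_0 = true := by
  decide +kernel

end Vale.Agent.P236C.D

end
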