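import Vale.Agent.P236C.Tab
import Vale.Agent.P236C.D.P
import Vale.Agent.P236C.D.Xs6
import Vale.Agent.P236C.D.U6_1

noncomputable section

namespace Vale.Agent.P236C.D

theorem cu6_1_0 : chkU (ctxK tb k7_1) (posK k7_1 (getL 0 q7_1) (getL 0 b7_1)) ds7 y7_1 z7_1 (nat_lit 8)
    (pickX xs6 [nat_lit 0, nat_lit 7, nat_lit 11, nat_lit 12, nat_lit 15, nat_lit 22, nat_lit 29, nat_lit 30, nat_lit 34, nat_lit 41])
    (pickU u6_1 [nat_lit 0, nat_lit 7, nat_lit 11, nat_lit 12, nat_lit 15, nat_lit 22, nat_lit 29, nat_lit 30, nat_lit 34, nat_lit 41]) = true := by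
  decide +kernel

end Vale.Agent.P236C.D

end
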