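import Vale.Agent.P236C.Tab
import Vale.Agent.P236C.D.P
import Vale.Agent.P236C.D.Xs6
import Vale.Agent.P236C.D.U6_1

noncomputable section

namespace Vale.Agent.P236C.D

theorem cu6_1_1 : chkU (ctxK tb k7_1) (posK k7_1 (getL 0 q7_1) (getL 0 b7_1)) ds7 y7_1 z7_1 (nat_lit 8)
    (pickX xs6 [nat_lit 1, nat_lit 4, nat_lit 10, nat_lit 14, nat_lit 18, nat_lit 24, nat_lit 26, nat_lit 32, nat_lit 33, nat_lit 37])
    (pickU u6_1 [nat_lit 1, nat_lit 4, nat_lit 10, nat_lit 14, nat_lit 18, nat_lit 24, nat_lit 26, nat_lit 32, nat_lit 33, nat_lit 37]) = true := by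
  decide +kernel

end Vale.Agent.P236C.D

end
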