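import Vale.Agent.P236C.Tab
import Vale.Agent.P236C.D.P
import Vale.Agent.P236C.D.Xs7
import Vale.Agent.P236C.D.U7_0

noncomputable section

namespace Vale.Agent.P236C.D

theorem cu7_0_0 : chkU (ctxK tb k8_0) (posK k8_0 (getL 0 q8_0) (getL 0 b8_0)) ds8 y8_0 z8_0 (nat_lit 0)
    (pickX xs7 [nat_lit 0, nat_lit 7, nat_lit 10, nat_lit 12, nat_lit 16, nat_lit 20, nat_lit 24, nat_lit 29, nat_lit 32, nat_lit 37, nat_lit 40])
    (pickU u7_0 [nat_lit 0, nat_lit 7, nat_lit 10, nat_lit 12, nat_lit 16, nat_lit 20, nat_lit 24, nat_lit 29, nat_lit 32, nat_lit 37, nat_lit 40]) = true := by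
  decide +kernel

end Vale.Agent.P236C.D

end
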