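import Vale.Agent.P236C.Tab
import Vale.Agent.P236C.D.P
import Vale.Agent.P236C.D.Xs7
import Vale.Agent.P236C.D.U7_0

noncomputable section

namespace Vale.Agent.P236C.D

theorem cu7_0_2 : chkU (ctxK tb k8_0) (posK k8_0 (getL 0 q8_0) (getL 0 b8_0)) ds8 y8_0 z8_0 (nat_lit 0)
    (pickX xs7 [nat_lit 2, nat_lit 5, nat_lit 8, nat_lit 15, nat_lit 18, nat_lit 22, nat_lit 26, nat_lit 30, nat_lit 33, nat_lit 36])
    (pickU u7_0 [nat_lit 2, nat_lit 5, nat_lit 8, nat_lit 15, nat_lit 18, nat_lit 22, nat_lit 26, nat_lit 30, nat_lit 33, nat_lit 36]) = true := by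
  decide +kernel

end Vale.Agent.P236C.D

end
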