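import Vale.Agent.P236C.Tab
import Vale.Agent.P236C.D.P
import Vale.Agent.P236C.D.Xs7
import Vale.Agent.P236C.D.U7_1

noncomputable section

namespace Vale.Agent.P236C.D

theorem cu7_1_0 : chkU (ctxK tb k8_1) (posK k8_1 (getL 0 q8_1) (getL 0 b8_1)) ds8 y8_1 z8_1 (nat_lit 8)
    (pickX xs7 [nat_lit 0, nat_lit 7, nat_lit 10, nat_lit 13, nat_lit 18, nat_lit 24, nat_lit 25, nat_lit 30, nat_lit 33, nat_lit 35])
    (pickU u7_1 [nat_lit 0, nat_lit 7, nat_lit 10, nat_lit 13, nat_lit 18, nat_lit 24, nat_lit 25, nat_lit 30, nat_lit 33, nat_lit 35]) = true := by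
  decide +kernel

end Vale.Agent.P236C.D

end
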