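import Vale.Agent.P236C.Tab
import Vale.Agent.P236C.D.P
import Vale.Agent.P236C.D.Xs7
import Vale.Agent.P236C.D.U7_1

noncomputable section

namespace Vale.Agent.P236C.D

theorem cu7_1_1 : chkU (ctxK tb k8_1) (posK k8_1 (getL 0 q8_1) (getL 0 b8_1)) ds8 y8_1 z8_1 (nat_lit 8)
    (pickX xs7 [nat_lit 1, nat_lit 6, nat_lit 9, nat_lit 14, nat_lit 21, nat_lit 22, nat_lit 23, nat_lit 29, nat_lit 34, nat_lit 38])
    (pickU u7_1 [nat_lit 1, nat_lit 6, nat_lit 9, nat_lit 14, nat_lit 21, nat_lit 22, nat_lit 23, nat_lit 29, nat_lit 34, nat_lit 38]) = true := by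
  decide +kernel

end Vale.Agent.P236C.D

end
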