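import Vale.Agent.P236C.Tab
import Vale.Agent.P236C.D.P
import Vale.Agent.P236C.D.Xs7
import Vale.Agent.P236C.D.U7_1

noncomputable section

namespace Vale.Agent.P236C.D

theorem cu7_1_2 : chkU (ctxK tb k8_1) (posK k8_1 (getL 0 q8_1) (getL 0 b8_1)) ds8 y8_1 z8_1 (nat_lit 8)
    (pickX xs7 [nat_lit 2, nat_lit 5, nat_lit 8, nat_lit 15, nat_lit 17, nat_lit 20, nat_lit 27, nat_lit 31, nat_lit 32, nat_lit 37, nat_lit 39])
    (pickU u7_1 [nat_lit 2, nat_lit 5, nat_lit 8, nat_lit 15, nat_lit 17, nat_lit 20, nat_lit 27, nat_lit 31, nat_lit 32, nat_lit 37, nat_lit 39]) = true := by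
  decide +kernel

end Vale.Agent.P236C.D

end
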