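import Vale.Agent.P236C.Tab
import Vale.Agent.P236C.D.P
import Vale.Agent.P236C.D.Xs7
import Vale.Agent.P236C.D.U7_1

noncomputable section

namespace Vale.Agent.P236C.D

theorem cu7_1_3 : chkU (ctxK tb k8_1) (posK k8_1 (getL 0 q8_1) (getL 0 b8_1)) ds8 y8_1 z8_1 (nat_lit 8)
    (pickX xs7 [nat_lit 3, nat_lit 4, nat_lit 11, nat_lit 12, nat_lit 16, nat_lit 19, nat_lit 26, nat_lit 28, nat_lit 36, nat_lit 40])
    (pickU u7_1 [nat_lit 3, nat_lit 4, nat_lit 11, nat_lit 12, nat_lit 16, nat_lit 19, nat_lit 26, nat_lit 28, nat_lit 36, nat_lit 40]) = true := by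
  decide +kernel

theorem wu7_1 : wf4 u7_1 = true := by
  decide +kernel

end Vale.Agent.P236C.D

end
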