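import Vale.Agent.P236C.Tab
import Vale.Agent.P236C.D.P
import Vale.Agent.P236C.D.Xs8
import Vale.Agent.P236C.D.U8_0

noncomputable section

namespace Vale.Agent.P236C.D

theorem cu8_0_2 : chkU (ctxK tb k9_0) (posK k9_0 (getL 0 q9_0) (getL 0 b9_0)) ds9 y9_0 z9_0 (nat_lit 0)
    (pickX xs8 [nat_lit 2, nat_lit 5, nat_lit 9, nat_lit 17, nat_lit 19, nat_lit 22, nat_lit 28, nat_lit 30, nat_lit 35])
    (pickU u8_0 [nat_lit 2, nat_lit 5, nat_lit 9, nat_lit 17, nat_lit 19, nat_lit 22, nat_lit 28, nat_lit 30, nat_lit 35]) = true := by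
  decide +kernel

end Vale.Agent.P236C.D

end
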