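import Vale.Agent.P236C.Tab
import Vale.Agent.P236C.D.P
import Vale.Agent.P236C.D.Xs8
import Vale.Agent.P236C.D.U8_1

noncomputable section

namespace Vale.Agent.P236C.D

theorem cu8_1_0 : chkU (ctxK tb k9_1) (posK k9_1 (getL 0 q9_1) (getL 0 b9_1)) ds9 y9_1 z9_1 (nat_lit 9)
    (pickX xs8 [nat_lit 0, nat_lit 4, nat_lit 8, nat_lit 9, nat_lit 16, nat_lit 18, nat_lit 22, nat_lit 23, nat_lit 25, nat_lit 32, nat_lit 33, nat_lit 37, nat_lit 38, nat_lit 39])
    (pickU u8_1 [nat_lit 0, nat_lit 4, nat_lit 8, nat_lit 9, nat_lit 16, nat_lit 18, nat_lit 22, nat_lit 23, nat_lit 25, nat_lit 32, nat_lit 33, nat_lit 37, nat_lit 38, nat_lit 39]) = true := by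
  decide +kernel

end Vale.Agent.P236C.D

end
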