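import Vale.Agent.P236C.Tab
import Vale.Agent.P236C.D.P
import Vale.Agent.P236C.D.Xs8
import Vale.Agent.P236C.D.U8_1

noncomputable section

namespace Vale.Agent.P236C.D

theorem cu8_1_1 : chkU (ctxK tb k9_1) (posK k9_1 (getL 0 q9_1) (getL 0 b9_1)) ds9 y9_1 z9_1 (nat_lit 9)
    (pickX xs8 [nat_lit 1, nat_lit 5, nat_lit 7, nat_lit 10, nat_lit 13, nat_lit 15, nat_lit 19, nat_lit 21, nat_lit 26, nat_lit 28, nat_lit 29, nat_lit 31, nat_lit 35])
    (pickU u8_1 [nat_lit 1, nat_lit 5, nat_lit 7, nat_lit 10, nat_lit 13, nat_lit 15, nat_lit 19, nat_lit 21, nat_lit 26, nat_lit 28, nat_lit 29, nat_lit 31, nat_lit 35]) = true := by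
  decide +kernel

end Vale.Agent.P236C.D

end
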