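import Vale.Agent.P236C.Tab
import Vale.Agent.P236C.D.P
import Vale.Agent.P236C.D.Xs9
import Vale.Agent.P236C.D.U9_0

noncomputable section

namespace Vale.Agent.P236C.D

theorem cu9_0_0 : chkU (ctxK tb k10_0) (posK k10_0 (getL 0 q10_0) (getL 0 b10_0)) ds10 y10_0 z10_0 (nat_lit 0)
    (pickX xs9 [nat_lit 0, nat_lit 5, nat_lit 6, nat_lit 10, nat_lit 13, nat_lit 14, nat_lit 16, nat_lit 20, nat_lit 24, nat_lit 27, nat_lit 29, nat_lit 34, nat_lit 35, nat_lit 37, nat_lit 41])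
    (pickU u9_0 [nat_lit 0, nat_lit 5, nat_lit 6, nat_lit 10, nat_lit 13, nat_lit 14, nat_lit 16, nat_lit 20, nat_lit 24, nat_lit 27, nat_lit 29, nat_lit 34, nat_lit 35, nat_lit 37, nat_lit 41]) = true := by
  decide +kernel

end Vale.Agent.P236C.D

end
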