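import Vale.Agent.P236C.Tab
import Vale.Agent.P236C.D.P
import Vale.Agent.P236C.D.Xs9
import Vale.Agent.P236C.D.U9_0

noncomputable section

namespace Vale.Agent.P236C.D

theorem cu9_0_1 : chkU (ctxK tb k10_0) (posK k10_0 (getL 0 q10_0) (getL 0 b10_0)) ds10 y10_0 z10_0 (nat_lit 0)
    (pickX xs9 [nat_lit 1, nat_lit 4, nat_lit 8, nat_lit 9, nat_lit 17, nat_lit 19, nat_lit 22, nat_lit 25, nat_lit 26, nat_lit 31, nat_lit 33, nat_lit 36, nat_lit 39, nat_lit 42])
    (pickU u9_0 [nat_lit 1, nat_lit 4, nat_lit 8, nat_lit 9, nat_lit 17, nat_lit 19, nat_lit 22, nat_lit 25, nat_lit 26, nat_lit 31, nat_lit 33, nat_lit 36, nat_lit 39, nat_lit 42]) = true := by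
  decide +kernel

end Vale.Agent.P236C.D

end
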