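import Vale.Agent.P236C.Tab
import Vale.Agent.P236C.D.P
import Vale.Agent.P236C.D.Xs9
import Vale.Agent.P236C.D.U9_0

noncomputable section

namespace Vale.Agent.P236C.D

theorem cu9_0_2 : chkU (ctxK tb k10_0) (posK k10_0 (getL 0 q10_0) (getL 0 b10_0)) ds10 y10_0 z10_0 (nat_lit 0)
    (pickX xs9 [nat_lit 2, nat_lit 3, nat_lit 7, nat_lit 11, nat_lit 12, nat_lit 15, nat_lit 18, nat_lit 21, nat_lit 23, nat_lit 28, nat_lit 30, nat_lit 32, nat_lit 38, nat_lit 40])
    (pickU u9_0 [nat_lit 2, nat_lit 3, nat_lit 7, nat_lit 11, nat_lit 12, nat_lit 15, nat_lit 18, nat_lit 21, nat_lit 23, nat_lit 28, nat_lit 30, nat_lit 32, nat_lit 38, nat_lit 40]) = true := by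
  decide +kernel

theorem wu9_0 : wf4 u9_0 = true := by
  decide +kernel

end Vale.Agent.P236C.D

end
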