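import Vale.Agent.P236C.Tab
import Vale.Agent.P236C.D.P
import Vale.Agent.P236C.D.Xs9
import Vale.Agent.P236C.D.U9_1

noncomputable section

namespace Vale.Agent.P236C.D

theorem cu9_1_0 : chkU (ctxK tb k10_1) (posK k10_1 (getL 0 q10_1) (getL 0 b10_1)) ds10 y10_1 z10_1 (nat_lit 9)
    (pickX xs9 [nat_lit 0, nat_lit 5, nat_lit 6, nat_lit 9, nat_lit 15, nat_lit 19, nat_lit 21, nat_lit 25, nat_lit 26, nat_lit 31, nat_lit 32, nat_lit 38, nat_lit 41])
    (pickU u9_1 [nat_lit 0, nat_lit 5, nat_lit 6, nat_lit 9, nat_lit 15, nat_lit 19, nat_lit 21, nat_lit 25, nat_lit 26, nat_lit 31, nat_lit 32, nat_lit 38, nat_lit 41]) = true := by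
  decide +kernel

end Vale.Agent.P236C.D

end
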