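import Vale.Agent.P236C.Tab
import Vale.Agent.P236C.D.P
import Vale.Agent.P236C.D.Xs9
import Vale.Agent.P236C.D.U9_1

noncomputable section

namespace Vale.Agent.P236C.D

theorem cu9_1_1 : chkU (ctxK tb k10_1) (posK k10_1 (getL 0 q10_1) (getL 0 b10_1)) ds10 y10_1 z10_1 (nat_lit 9)
    (pickX xs9 [nat_lit 1, nat_lit 4, nat_lit 8, nat_lit 10, nat_lit 13, nat_lit 14, nat_lit 18, nat_lit 22, nat_lit 24, nat_lit 27, nat_lit 30, nat_lit 35, nat_lit 36, nat_lit 37, nat_lit 42])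
    (pickU u9_1 [nat_lit 1, nat_lit 4, nat_lit 8, nat_lit 10, nat_lit 13, nat_lit 14, nat_lit 18, nat_lit 22, nat_lit 24, nat_lit 27, nat_lit 30, nat_lit 35, nat_lit 36, nat_lit 37, nat_lit 42]) = true := by
  decide +kernel

end Vale.Agent.P236C.D

end
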