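import Vale.Agent.P236C.Tab
import Vale.Agent.P236C.D.P
import Vale.Agent.P236C.D.Xs9
import Vale.Agent.P236C.D.U9_1

noncomputable section

namespace Vale.Agent.P236C.D

theorem cu9_1_2 : chkU (ctxK tb k10_1) (posK k10_1 (getL 0 q10_1) (getL 0 b10_1)) ds10 y10_1 z10_1 (nat_lit 9)
    (pickX xs9 [nat_lit 2, nat_lit 3, nat_lit 7, nat_lit 11, nat_lit 12, nat_lit 16, nat_lit 17, nat_lit 20, nat_lit 23, nat_lit 28, nat_lit 29, nat_lit 33, nat_lit 34, nat_lit 39, nat_lit 40])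
    (pickU u9_1 [nat_lit 2, nat_lit 3, nat_lit 7, nat_lit 11, nat_lit 12, nat_lit 16, nat_lit 17, nat_lit 20, nat_lit 23, nat_lit 28, nat_lit 29, nat_lit 33, nat_lit 34, nat_lit 39, nat_lit 40]) = true := by
  decide +kernel

theorem wu9_1 : wf4 u9_1 = true := by
  decide +kernel

end Vale.Agent.P236C.D

end
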