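import Vale.Agent.P236C.Tab
import Vale.Agent.P236C.D.L
import Vale.Agent.P236C.D.K
import Vale.Agent.P236C.D.U12_1
import Vale.Agent.P236C.D.J11_1

noncomputable section

namespace Vale.Agent.P236C.D

theorem cq11_1_0 : chkJ (ctxK tb k13_1) (g1K k13_1) ds12 u12_1
    (pick (jobsA (nat_lit 90) xs11 c11_1) [nat_lit 4, nat_lit 43, nat_lit 46]) = true := by
  decide +kernel

end Vale.Agent.P236C.D

end
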