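import Vale.Agent.P236C.Tab
import Vale.Agent.P236C.D.L
import Vale.Agent.P236C.D.K
import Vale.Agent.P236C.D.U12_1
import Vale.Agent.P236C.D.J11_1

noncomputable section

namespace Vale.Agent.P236C.D

theorem cq11_1_8 : chkJ (ctxK tb k13_1) (g1K k13_1) ds12 u12_1
    (pick (jobsA (nat_lit 90) xs11 c11_1) [nat_lit 3, nat_lit 13, nat_lit 16, nat_lit 17, nat_lit 18, nat_lit 19, nat_lit 21, nat_lit 22, nat_lit 23, nat_lit 25, nat_lit 26, nat_lit 28, nat_lit 32]) = true := by
  decide +kernel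

end Vale.Agent.P236C.D

end
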