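import Vale.Agent.P236C.Tab
import Vale.Agent.P236C.D.L
import Vale.Agent.P236C.D.K
import Vale.Agent.P236C.D.U13_0
import Vale.Agent.P236C.D.J12_0

noncomputable section

namespace Vale.Agent.P236C.D

theorem cq12_0_1 : chkJ (ctxK tb k14_0) (g1K k14_0) ds13 u13_0
    (pick (jobsA (nat_lit 90) xs12 c12_0) [nat_lit 1, nat_lit 10, nat_lit 13, nat_lit 17, nat_lit 33]) = true := by
  decide +kernel

end Vale.Agent.P236C.D

end
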