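import Vale.Agent.P236C.Tab
import Vale.Agent.P236C.D.L
import Vale.Agent.P236C.D.K
import Vale.Agent.P236C.D.U13_0
import Vale.Agent.P236C.D.J12_0

noncomputable section

namespace Vale.Agent.P236C.D

theorem cq12_0_2 : chkJ (ctxK tb k14_0) (g1K k14_0) ds13 u13_0
    (pick (jobsA (nat_lit 90) xs12 c12_0) [nat_lit 2, nat_lit 11, nat_lit 14, nat_lit 15, nat_lit 18, nat_lit 19, nat_lit 21, nat_lit 29, nat_lit 39]) = true := by
  decide +kernel

end Vale.Agent.P236C.D

end
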