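import Vale.Agent.P236C.Tab
import Vale.Agent.P236C.D.L
import Vale.Agent.P236C.D.K
import Vale.Agent.P236C.D.U13_0
import Vale.Agent.P236C.D.J12_0

noncomputable section

namespace Vale.Agent.P236C.D

theorem cq12_0_4 : chkJ (ctxK tb k14_0) (g1K k14_0) ds13 u13_0
    (pick (jobsA (nat_lit 90) xs12 c12_0) [nat_lit 3, nat_lit 20, nat_lit 22, nat_lit 23, nat_lit 24, nat_lit 25, nat_lit 26, nat_lit 27, nat_lit 28, nat_lit 30, nat_lit 31, nat_lit 32, nat_lit 36, nat_lit 37, nat_lit 38]) = true := by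
  decide +kernel

end Vale.Agent.P236C.D

end
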