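import Vale.Agent.P236C.Tab
import Vale.Agent.P236C.D.L
import Vale.Agent.P236C.D.K
import Vale.Agent.P236C.D.U14_0
import Vale.Agent.P236C.D.J13_0

noncomputable section

namespace Vale.Agent.P236C.D

theorem cq13_0_6 : chkJ (ctxK tb k15_0) (g1K k15_0) ds14 u14_0
    (pick (jobsA (nat_lit 90) xs13 c13_0) [nat_lit 9, nat_lit 12, nat_lit 18, nat_lit 21, nat_lit 22, nat_lit 23, nat_lit 25, nat_lit 27, nat_lit 28, nat_lit 29, nat_lit 30]) = true := by
  decide +kernel

end Vale.Agent.P236C.D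

end
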