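import Vale.Agent.P236C.Tab
import Vale.Agent.P236C.D.L
import Vale.Agent.P236C.D.K
import Vale.Agent.P236C.D.U14_1
import Vale.Agent.P236C.D.J13_1

noncomputable section

namespace Vale.Agent.P236C.D

theorem cq13_1_1 : chkJ (ctxK tb k15_1) (g1K k15_1) ds14 u14_1
    (pick (jobsA (nat_lit 90) xs13 c13_1) [nat_lit 1, nat_lit 10, nat_lit 20, nat_lit 31]) = true := by
  decide +kernel

end Vale.Agent.P236C.D

end
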