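import Vale.Agent.P236C.Tab
import Vale.Agent.P236C.D.L
import Vale.Agent.P236C.D.K
import Vale.Agent.P236C.D.U15_0
import Vale.Agent.P236C.D.J14_0

noncomputable section

namespace Vale.Agent.P236C.D

theorem cq14_0_1 : chkJ (ctxK tb k16_0) (g1K k16_0) ds15 u15_0
    (pick (jobsA (nat_lit 90) xs14 c14_0) [nat_lit 1, nat_lit 13, nat_lit 14, nat_lit 15, nat_lit 16, nat_lit 17, nat_lit 19, nat_lit 20, nat_lit 21, nat_lit 22, nat_lit 23, nat_lit 24, nat_lit 25, nat_lit 27, nat_lit 28, nat_lit 29, nat_lit 31]) = true := by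
  decide +kernel

end Vale.Agent.P236C.D

end
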