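import Vale.Agent.P236C.Tab
import Vale.Agent.P236C.D.L
import Vale.Agent.P236C.D.K
import Vale.Agent.P236C.D.U16_0
import Vale.Agent.P236C.D.J15_0

noncomputable section

namespace Vale.Agent.P236C.D

theorem cq15_0_2 : chkJ (ctxK tb k17_0) (g1K k17_0) ds16 u16_0
    (pick (jobsA (nat_lit 90) xs15 c15_0) [nat_lit 2, nat_lit 6, nat_lit 23, nat_lit 24]) = true := by
  decide +kernel

end Vale.Agent.P236C.D

end
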