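import Vale.Agent.P236C.Tab
import Vale.Agent.P236C.D.L
import Vale.Agent.P236C.D.K
import Vale.Agent.P236C.D.U19_0
import Vale.Agent.P236C.D.J18_0

noncomputable section

namespace Vale.Agent.P236C.D

theorem cq18_0_3 : chkJ (ctxK tb k20_0) (g1K k20_0) ds19 u19_0
    (pick (jobsA (nat_lit 90) xs18 c18_0) [nat_lit 9, nat_lit 18, nat_lit 21]) = true := by
  decide +kernel

end Vale.Agent.P236C.D

end
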