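import Vale.Agent.P236C.Tab
import Vale.Agent.P236C.D.L
import Vale.Agent.P236C.D.K
import Vale.Agent.P236C.D.U20_0
import Vale.Agent.P236C.D.J19_0

noncomputable section

namespace Vale.Agent.P236C.D

theorem cq19_0_0 : chkJ (ctxK tb k21_0) (g1K k21_0) ds20 u20_0
    (pick (jobsA (nat_lit 90) xs19 c19_0) [nat_lit 0, nat_lit 1, nat_lit 12, nat_lit 17]) = true := by
  decide +kernel

end Vale.Agent.P236C.D

end
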