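import Vale.Agent.P236C.Tab
import Vale.Agent.P236C.D.L
import Vale.Agent.P236C.D.K
import Vale.Agent.P236C.D.U20_0
import Vale.Agent.P236C.D.J19_0

noncomputable section

namespace Vale.Agent.P236C.D

theorem cq19_0_2 : chkJ (ctxK tb k21_0) (g1K k21_0) ds20 u20_0
    (pick (jobsA (nat_lit 90) xs19 c19_0) [nat_lit 4, nat_lit 6, nat_lit 7, nat_lit 8, nat_lit 9, nat_lit 11, nat_lit 13, nat_lit 14, nat_lit 15, nat_lit 16, nat_lit 18, nat_lit 19, nat_lit 21, nat_lit 22, nat_lit 23]) = true := by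
  decide +kernel

end Vale.Agent.P236C.D

end
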