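import Vale.Agent.P236C.Tab
import Vale.Agent.P236C.D.L
import Vale.Agent.P236C.D.K
import Vale.Agent.P236C.D.U2_0
import Vale.Agent.P236C.D.J1_0

noncomputable section

namespace Vale.Agent.P236C.D

theorem cq1_0_1 : chkJ (ctxK tb k3_0) (g1K k3_0) ds2 u2_0
    (pick (jobsA (nat_lit 90) xs1 c1_0) [nat_lit 0, nat_lit 11]) = true := by
  decide +kernel

end Vale.Agent.P236C.D

end
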