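import Vale.Agent.P236C.Tab
import Vale.Agent.P236C.D.L
import Vale.Agent.P236C.D.K
import Vale.Agent.P236C.D.U21_0
import Vale.Agent.P236C.D.J20_0

noncomputable section

namespace Vale.Agent.P236C.D

theorem cq20_0_0 : chkJ (ctxK tb k22_0) (g1K k22_0) ds21 u21_0
    (pick (jobsA (nat_lit 90) xs20 c20_0) [nat_lit 0, nat_lit 1, nat_lit 2, nat_lit 10, nat_lit 12, nat_lit 18]) = true := by
  decide +kernel

end Vale.Agent.P236C.D

end
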