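import Vale.Agent.P236C.Tab
import Vale.Agent.P236C.D.L
import Vale.Agent.P236C.D.K
import Vale.Agent.P236C.D.U27_0
import Vale.Agent.P236C.D.J26_0

noncomputable section

namespace Vale.Agent.P236C.D

theorem cq26_0_0 : chkJ (ctxK tb k28_0) (g1K k28_0) ds27 u27_0
    (pick (jobsA (nat_lit 90) xs26 c26_0) [nat_lit 0, nat_lit 1, nat_lit 2, nat_lit 3, nat_lit 4, nat_lit 5, nat_lit 6, nat_lit 7, nat_lit 8, nat_lit 9, nat_lit 10, nat_lit 11, nat_lit 12, nat_lit 13, nat_lit 14, nat_lit 15, nat_lit 16, nat_lit 17, nat_lit 18, nat_lit 19, nat_lit 20]) = true := by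
  decide +kernel

end Vale.Agent.P236C.D

end
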