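import Vale.Agent.P236C.Tab
import Vale.Agent.P236C.D.L
import Vale.Agent.P236C.D.K
import Vale.Agent.P236C.D.U30_0
import Vale.Agent.P236C.D.J29_0

noncomputable section

namespace Vale.Agent.P236C.D

theorem cq29_0_0 : chkJ (ctxK tb k31_0) (g1K k31_0) ds30 u30_0
    (pick (jobsA (nat_lit 90) xs29 c29_0) [nat_lit 0, nat_lit 1, nat_lit 2, nat_lit 3, nat_lit 4, nat_lit 5, nat_lit 6, nat_lit 7, nat_lit 8, nat_lit 9, nat_lit 10, nat_lit 11, nat_lit 12, nat_lit 13, nat_lit 14, nat_lit 15, nat_lit 16, nat_lit 17, nat_lit 18]) = true := by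
  decide +kernel

end Vale.Agent.P236C.D

end
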