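import Vale.Agent.P236C.Tab
import Vale.Agent.P236C.D.L
import Vale.Agent.P236C.D.K
import Vale.Agent.P236C.D.U5_1
import Vale.Agent.P236C.D.J4_1

noncomputable section

namespace Vale.Agent.P236C.D

theorem cq4_1_1 : chkJ (ctxK tb k6_1) (g1K k6_1) ds5 u5_1
    (pick (jobsA (nat_lit 90) xs4 c4_1) [nat_lit 15, nat_lit 70]) = true := by
  decide +kernel

end Vale.Agent.P236C.D

end
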