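import Vale.Agent.P236C.Tab
import Vale.Agent.P236C.D.L
import Vale.Agent.P236C.D.K
import Vale.Agent.P236C.D.U7_1
import Vale.Agent.P236C.D.J6_1

noncomputable section

namespace Vale.Agent.P236C.D

theorem cq6_1_11 : chkJ (ctxK tb k8_1) (g1K k8_1) ds7 u7_1
    (pick (jobsA (nat_lit 90) xs6 c6_1) [nat_lit 4, nat_lit 33, nat_lit 43]) = true := by
  decide +kernel

end Vale.Agent.P236C.D

end
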