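import Vale.Agent.P236C.Tab
import Vale.Agent.P236C.D.L
import Vale.Agent.P236C.D.K
import Vale.Agent.P236C.D.U9_0
import Vale.Agent.P236C.D.J8_0

noncomputable section

namespace Vale.Agent.P236C.D

theorem cq8_0_1 : chkJ (ctxK tb k10_0) (g1K k10_0) ds9 u9_0
    (pick (jobsA (nat_lit 90) xs8 c8_0) [nat_lit 0, nat_lit 40]) = true := by
  decide +kernel

end Vale.Agent.P236C.D

end
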