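import Vale.Agent.P236C.Tab
import Vale.Agent.P236C.D.L
import Vale.Agent.P236C.D.K
import Vale.Agent.P236C.D.U10_1
import Vale.Agent.P236C.D.J9_1

noncomputable section

namespace Vale.Agent.P236C.D

theorem cq9_1_11 : chkJ (ctxK tb k11_1) (g1K k11_1) ds10 u10_1
    (pick (jobsA (nat_lit 90) xs9 c9_1) [nat_lit 7, nat_lit 13, nat_lit 36]) = true := by
  decide +kernel

end Vale.Agent.P236C.D

end
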