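import Vale.Agent.P236C.Tab
import Vale.Agent.P236C.D.P
import Vale.Agent.P236C.D.Xs0
import Vale.Agent.P236C.D.U0_0

noncomputable section

namespace Vale.Agent.P236C.D

theorem cu0_0_0 : chkU (ctxK tb k1_0) (posK k1_0 (getL 0 q1_0) (getL 0 b1_0)) ds1 y1_0 z1_0 (nat_lit 0)
    (pickX xs0 [nat_lit 0])
    (pickU u0_0 [nat_lit 0]) = true := by
  decide +kernel

theorem wu0_0 : wf4 u0_0 = true := by
  decide +kernel

end Vale.Agent.P236C.D

end
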