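import Vale.Agent.P236C.Tab
import Vale.Agent.P236C.D.P
import Vale.Agent.P236C.D.Xs16
import Vale.Agent.P236C.D.U16_0

noncomputable section

namespace Vale.Agent.P236C.D

theorem cu16_0_0 : chkU (ctxK tb k17_0) (posK k17_0 (getL 0 q17_0) (getL 0 b17_0)) ds17 y17_0 z17_0 (nat_lit 0)
    (pickX xs16 [nat_lit 0, nat_lit 3, nat_lit 4, nat_lit 6, nat_lit 9, nat_lit 10, nat_lit 13, nat_lit 14, nat_lit 16, nat_lit 19, nat_lit 20, nat_lit 23, nat_lit 25])
    (pickU u16_0 [nat_lit 0, nat_lit 3, nat_lit 4, nat_lit 6, nat_lit 9, nat_lit 10, nat_lit 13, nat_lit 14, nat_lit 16, nat_lit 19, nat_lit 20, nat_lit 23, nat_lit 25]) = true := by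
  decide +kernel

end Vale.Agent.P236C.D

end
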